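import Vale.Agent.P073.GB371.InOut
import Vale.Agent.P073.H339.SphereJS
import Vale.Agent.P073.PR.Faces

/-!
# P073, block TM: unions of faces of a box are conical discs
-/

open Set Metric Topology Filter

namespace P073.TM655

variable {E : Type*} [NormedAddCommGroup E] [NormedSpace ℝ E]

/-- a conical sphere which is the union of two closed sets meeting in a conical sphere of one
dimension less -/
theorem split_sets {n : ℕ} {S D A γ : Set E} (hJ : JordanSch n S) (hD : IsClosed D)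
    (hA : IsClosed A) (hS : D ∪ A = S) (hγ : D ∩ A = γ) (hs : ConSphere (n - 1) γ)
    (h1 : ∃ x ∈ D, x ∉ A) (h2 : ∃ x ∈ A, x ∉ D) : ConBall n D γ ∧ ConBall n A γ := by
  subst hS hγ
  obtain ⟨x, hx, hx'⟩ := h1
  obtain ⟨y, hy, hy'⟩ := h2
  have key := split_gen (P := Aᶜ) (Q := Dᶜ) hJ
    (fun x hx => Or.inl hx.1) hs hA.isOpen_compl hD.isOpen_compl
    (by
      rintro z ⟨_, hz⟩
      by_cases h : z ∈ A
      · exact Or.inr fun h' => hz ⟨h', h⟩
      · exact Or.inl h)
    (by
      rintro z ⟨hz, _⟩ hzA hzD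
      exact hz.elim hzD hzA)
    ⟨x, ⟨Or.inl hx, fun h => hx' h.2⟩, hx'⟩ ⟨y, ⟨Or.inr hy, fun h => hy' h.1⟩, hy'⟩
  have e1 : ((D ∪ A) \ (D ∩ A)) ∩ Aᶜ ∪ D ∩ A = D := by
    ext z
    constructor
    · rintro (⟨⟨h, _⟩, h'⟩ | h)
      · exact h.resolve_right h'
      · exact h.1
    · intro h
      by_cases h' : z ∈ A
      · exact Or.inr ⟨h, h'⟩
      · exact Or.inl ⟨⟨Or.inl h, fun k => h' k.2⟩, h'⟩
  have e2 : ((D ∪ A) \ (D ∩ A)) ∩ Dᶜ ∪ D ∩ A = A := by
    ext z
    constructor
    · rintro (⟨⟨h, _⟩, h'⟩ | h)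
      · exact h.resolve_left h'
      · exact h.2
    · intro h
      by_cases h' : z ∈ D
      · exact Or.inr ⟨h', h⟩
      · exact Or.inl ⟨⟨Or.inr h, fun k => h' k.1⟩, h'⟩
  rw [e1, e2] at key
  exact key

/-- the theta step: two circles with a common arc -/
theorem theta_step {D A B g : Set E} (h1 : ConSphere 1 (D ∪ A)) (h2 : ConSphere 1 (D ∪ B))
    (hD : IsClosed D) (hA : IsClosed A) (hB : IsClosed B) (hDA : D ∩ A = g) (hDB : D ∩ B = g)
    (hAB : A ∩ B = g) (hg : ConSphere 0 g) (n1 : ∃ x ∈ D, x ∉ A) (n2 : ∃ x ∈ A, x ∉ D)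
    (n3 : ∃ x ∈ D, x ∉ B) (n4 : ∃ x ∈ B, x ∉ D) : ConSphere 1 (A ∪ B) := by
  have k1 := (split_sets (jordanSch_one h1) hD hA rfl hDA hg n1 n2).2
  have k2 := (split_sets (jordanSch_one h2) hD hB rfl hDB hg n3 n4).2
  exact glueSph_aux one_ne_zero k1 k2 hAB

/-! ### The faces of a box -/

/-- `x` is on the hyperplane of the face `f` -/
def On (a b : Fin 3 → ℝ) (f : Fin 3 × Bool) (x : Fin 3 → ℝ) : Prop :=
  x f.1 = if f.2 then b f.1 else a f.1

/-- the union of the faces in `S` of the box `Icc a b` -/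
def facesU (a b : Fin 3 → ℝ) (S : Set (Fin 3 × Bool)) : Set (Fin 3 → ℝ) :=
  {x ∈ Icc a b | ∃ f ∈ S, x f.1 = if f.2 then b f.1 else a f.1}

theorem isClosed_facesU (a b : Fin 3 → ℝ) (S : Set (Fin 3 × Bool)) : IsClosed (facesU a b S) := by
  have e : facesU a b S = ⋃ f : S, (Icc a b ∩ {x | x f.1.1 = if f.1.2 then b f.1.1 else a f.1.1}) := by
    ext x
    simp only [facesU, mem_ofPred_eq, mem_iUnion, mem_inter_iff]
    constructor
    · rintro ⟨h1, f, hf, h2⟩
      exact ⟨⟨f, hf⟩, h1, h2⟩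
    · rintro ⟨f, h1, h2⟩
      exact ⟨h1, f.1, f.2, h2⟩
  rw [e]
  refine isClosed_iUnion_of_finite fun f => isClosed_Icc.inter ?_
  exact isClosed_eq (continuous_apply _) continuous_const

theorem facesU_union (a b : Fin 3 → ℝ) (S T : Set (Fin 3 × Bool)) :
    facesU a b (S ∪ T) = facesU a b S ∪ facesU a b T := by
  ext x
  constructor
  · rintro ⟨h, f, hf | hf, h2⟩
    · exact Or.inl ⟨h, f, hf, h2⟩
    · exact Or.inr ⟨h, f, hf, h2⟩
  · rintro (⟨h, f, hf, h2⟩ | ⟨h, f, hf, h2⟩)
    · exact ⟨h, f, Or.inl hf, h2⟩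
    · exact ⟨h, f, Or.inr hf, h2⟩

/-- the points of the closed box with coordinates at the ends or in the middle -/
noncomputable def pt (a b : Fin 3 → ℝ) (p : Fin 3 → Option Bool) : Fin 3 → ℝ :=
  fun k => match p k with
    | none => (a k + b k) / 2
    | some true => b k
    | some false => a k

theorem pt_mem {a b : Fin 3 → ℝ} (h : ∀ k, a k < b k) (p : Fin 3 → Option Bool) :
    pt a b p ∈ Icc a b := by
  constructor <;> intro k <;> have := h k <;> unfold pt <;>
    rcases p k with _ | _ | _ <;> simp only <;> linarith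

theorem pt_on {a b : Fin 3 → ℝ} (h : ∀ k, a k < b k) (p : Fin 3 → Option Bool)
    (f : Fin 3 × Bool) :
    (pt a b p f.1 = if f.2 then b f.1 else a f.1) ↔ p f.1 = some f.2 := by
  have hk := h f.1
  obtain ⟨k, s⟩ := f
  simp only at hk
  unfold pt
  simp only
  cases s <;> rcases p k with _ | _ | _ <;> simp <;> linarith

theorem pt_mem_facesU {a b : Fin 3 → ℝ} (h : ∀ k, a k < b k) (p : Fin 3 → Option Bool)
    (S : Set (Fin 3 × Bool)) : pt a b p ∈ facesU a b S ↔ ∃ f ∈ S, p f.1 = some f.2 := by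
  constructor
  · rintro ⟨_, f, hf, h2⟩
    exact ⟨f, hf, (pt_on h p f).1 h2⟩
  · rintro ⟨f, hf, h2⟩
    exact ⟨pt_mem h p, f, hf, (pt_on h p f).2 h2⟩

/-- a point on three faces with different normals is a vertex -/
theorem eq_pt {a b : Fin 3 → ℝ} {f g h : Fin 3 × Bool} (h1 : f.1 ≠ g.1) (h2 : f.1 ≠ h.1)
    (h3 : g.1 ≠ h.1) {x : Fin 3 → ℝ} (hf : x f.1 = if f.2 then b f.1 else a f.1)
    (hg : x g.1 = if g.2 then b g.1 else a g.1) (hh : x h.1 = if h.2 then b h.1 else a h.1) :
    ∃ v : Fin 3 → Bool, x = pt a b (fun k => some (v k)) ∧ v f.1 = f.2 ∧ v g.1 = g.2 ∧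
      v h.1 = h.2 := by
  obtain ⟨i, s⟩ := f
  obtain ⟨j, t⟩ := g
  obtain ⟨k, u⟩ := h
  simp only at h1 h2 h3 hf hg hh
  refine ⟨fun l => if l = i then s else if l = j then t else u, ?_, by simp, ?_, ?_⟩
  · ext l
    have hl : l = i ∨ l = j ∨ l = k := by omega
    unfold pt
    simp only
    rcases hl with rfl | rfl | rfl
    · rw [if_pos rfl, hf]; cases s <;> rfl
    · rw [if_neg h1.symm, if_pos rfl, hg]; cases t <;> rfl
    · rw [if_neg h2.symm, if_neg h3.symm, hh]; cases u <;> rfl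
  · simp [h1.symm]
  · simp [h2.symm, h3.symm]

/-! ### Combinatorics -/

/-- a function on the six faces -/
def S6 (s0 s1 s2 s3 s4 s5 : Bool) : Fin 3 × Bool → Bool
  | (0, false) => s0
  | (0, true) => s1
  | (1, false) => s2
  | (1, true) => s3
  | (2, false) => s4
  | (2, true) => s5

theorem eq_S6 (s : Fin 3 × Bool → Bool) :
    s = S6 (s (0, false)) (s (0, true)) (s (1, false)) (s (1, true)) (s (2, false))
      (s (2, true)) := by
  funext ⟨k, t⟩
  fin_cases k <;> cases t <;> rfl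

/-- a vertex of the cube -/
def V3b (u0 u1 u2 : Bool) : Fin 3 → Bool
  | 0 => u0
  | 1 => u1
  | 2 => u2

theorem eq_V3b (v : Fin 3 → Bool) : v = V3b (v 0) (v 1) (v 2) := by
  funext k
  fin_cases k <;> rfl

/-- a set of faces which is neither empty nor an opposite pair, and neither is its complement -/
def Valid (s : Fin 3 × Bool → Bool) : Prop :=
  (∃ f, s f = true) ∧ (∃ f, s f = false) ∧ (∀ k, ¬ ∀ f : Fin 3 × Bool, s f = true ↔ f.1 = k) ∧
    ∀ k, ¬ ∀ f : Fin 3 × Bool, s f = false ↔ f.1 = k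

instance (s : Fin 3 × Bool → Bool) : Decidable (Valid s) := by unfold Valid; infer_instance

/-- remove `f` -/
def ers (s : Fin 3 × Bool → Bool) (f : Fin 3 × Bool) : Fin 3 × Bool → Bool :=
  fun g => s g && !decide (g = f)

/-- the vertex `v` is on `f`, on a face in `s` and on a face neither in `s` nor equal to `f` -/
def Chg (s : Fin 3 × Bool → Bool) (f : Fin 3 × Bool) (v : Fin 3 → Bool) : Prop :=
  v f.1 = f.2 ∧ (∃ g : Fin 3 × Bool, s g = true ∧ v g.1 = g.2) ∧
    ∃ h : Fin 3 × Bool, s h = false ∧ h ≠ f ∧ v h.1 = h.2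

instance (s : Fin 3 × Bool → Bool) (f : Fin 3 × Bool) (v : Fin 3 → Bool) :
    Decidable (Chg s f v) := by unfold Chg; infer_instance

/-- conditions under which the face `f` can be added to `s` -/
def StepOK (s : Fin 3 × Bool → Bool) (f : Fin 3 × Bool) : Prop :=
  (∃ g, s g = true ∧ g.1 ≠ f.1) ∧ (∃ h, s h = false ∧ h.1 ≠ f.1) ∧
    (∃ g h : Fin 3 × Bool, s g = true ∧ s h = false ∧ h ≠ f ∧ g.1 ≠ h.1) ∧
    ∃ v0 v1 v2 w0 w1 w2 : Bool, (v0, v1, v2) ≠ (w0, w1, w2) ∧
      Chg s f (V3b v0 v1 v2) ∧ Chg s f (V3b w0 w1 w2) ∧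
      ∀ u0 u1 u2 : Bool, Chg s f (V3b u0 u1 u2) → (u0, u1, u2) = (v0, v1, v2) ∨
        (u0, u1, u2) = (w0, w1, w2)

instance (s : Fin 3 × Bool → Bool) (f : Fin 3 × Bool) :
    Decidable (StepOK s f) := by unfold StepOK; infer_instance

set_option maxRecDepth 100000 in
theorem comb6 : ∀ s0 s1 s2 s3 s4 s5 : Bool, Valid (S6 s0 s1 s2 s3 s4 s5) →
    (∃ f, ∀ g, S6 s0 s1 s2 s3 s4 s5 g = true ↔ g = f) ∨
    ∃ f, S6 s0 s1 s2 s3 s4 s5 f = true ∧ Valid (ers (S6 s0 s1 s2 s3 s4 s5) f) ∧
      StepOK (ers (S6 s0 s1 s2 s3 s4 s5) f) f := by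
  decide

theorem comb (s : Fin 3 × Bool → Bool) (hs : Valid s) :
    (∃ f, ∀ g, s g = true ↔ g = f) ∨
    ∃ f, s f = true ∧ Valid (ers s f) ∧ StepOK (ers s f) f := by
  rw [eq_S6 s] at hs ⊢
  exact comb6 _ _ _ _ _ _ hs

/-! ### The boundary of a union of faces is a circle -/

/-- the common points of the faces in `s` and of the other ones -/
def gam (a b : Fin 3 → ℝ) (s : Fin 3 × Bool → Bool) : Set (Fin 3 → ℝ) :=
  facesU a b {f | s f = true} ∩ facesU a b {f | s f = false}

theorem step {a b : Fin 3 → ℝ} (hab : ∀ k, a k < b k) {s : Fin 3 × Bool → Bool}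
    {f : Fin 3 × Bool} (hsf : s f = true) (hstep : StepOK (ers s f) f)
    (h1 : ConSphere 1 (gam a b (ers s f))) (h2 : ConSphere 1 (gam a b fun g => decide (g = f))) :
    ConSphere 1 (gam a b s) := by
  obtain ⟨⟨g1, hg1, hg1f⟩, ⟨k1, hk1, hk1f⟩, ⟨g2, k2, hg2, hk2, hk2f, hgk⟩,
    v0, v1, v2, w0, w1, w2, hvw, hv, hw, huniq⟩ := hstep
  set P : Set (Fin 3 × Bool) := {g | ers s f g = true} with hP
  set Q : Set (Fin 3 × Bool) := {g | ers s f g = false ∧ g ≠ f} with hQ
  have mP : ∀ g, g ∈ P ↔ s g = true ∧ g ≠ f := by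
    intro g
    simp [hP, ers]
  have mQ : ∀ g, g ∈ Q ↔ s g = false ∧ g ≠ f := by
    intro g
    simp only [hQ, ers, mem_ofPred_eq, Bool.and_eq_false_imp, Bool.not_eq_false',
      decide_eq_true_eq]
    constructor
    · rintro ⟨h, h'⟩
      refine ⟨?_, h'⟩
      by_contra hcon
      rw [Bool.not_eq_false] at hcon
      exact h' (h hcon)
    · rintro ⟨h, h'⟩
      exact ⟨fun h'' => by rw [h] at h''; exact absurd h'' (by decide), h'⟩
  have e1 : {g | ers s f g = false} = {f} ∪ Q := by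
    ext g
    by_cases h : g = f
    · subst h; simp [ers]
    · simp [hQ, h]
  have e2 : {g | s g = true} = {f} ∪ P := by
    ext g
    by_cases h : g = f
    · subst h; simp [hsf]
    · have := mP g
      simp only [mem_union, mem_singleton_iff, mem_ofPred_eq]
      rw [this]
      simp [h]
  have e3 : {g | s g = false} = Q := by
    ext g
    rw [mQ]
    constructor
    · intro h
      refine ⟨h, ?_⟩
      rintro rfl
      rw [mem_ofPred_eq, hsf] at h
      exact absurd h (by decide)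
    · exact fun h => h.1
  have e4 : {g | decide (g = f) = true} = ({f} : Set (Fin 3 × Bool)) := by
    ext g; simp
  have e5 : {g | decide (g = f) = false} = P ∪ Q := by
    ext g
    rw [mem_union, mP, mQ]
    simp only [mem_ofPred_eq, decide_eq_false_iff_not]
    constructor
    · intro h
      cases hg : s g
      · exact Or.inr ⟨rfl, h⟩
      · exact Or.inl ⟨rfl, h⟩
    · rintro (h | h)
      · exact h.2
      · exact h.2
  unfold gam at h1 h2 ⊢
  rw [e1, facesU_union] at h1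
  rw [e4, e5, facesU_union] at h2
  rw [e2, e3, facesU_union]
  set F := facesU a b {f}
  set PP := facesU a b P
  set QQ := facesU a b Q
  have hF : IsClosed F := isClosed_facesU _ _ _
  have hPP : IsClosed PP := isClosed_facesU _ _ _
  have hQQ : IsClosed QQ := isClosed_facesU _ _ _
  have ne : ∀ {g h : Fin 3 × Bool}, g ≠ h → ∀ {x : Fin 3 → ℝ},
      (x g.1 = if g.2 then b g.1 else a g.1) → (x h.1 = if h.2 then b h.1 else a h.1) →
      g.1 ≠ h.1 := by
    rintro ⟨i, t⟩ ⟨j, u⟩ hne x hx hy (rfl : i = j)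
    have htu : t ≠ u := fun h => hne (by rw [h])
    simp only at hx hy
    rw [hx] at hy
    have := hab i
    cases t <;> cases u <;> simp at hy htu <;> linarith
  -- the two common vertices
  have hg : F ∩ PP ∩ QQ = {pt a b fun k => some (V3b v0 v1 v2 k),
      pt a b fun k => some (V3b w0 w1 w2 k)} := by
    ext x
    constructor
    · rintro ⟨⟨⟨hx, f', hf', hxf⟩, ⟨_, g, hgP, hxg⟩⟩, ⟨_, h, hhQ, hxh⟩⟩
      rw [mem_singleton_iff] at hf'
      subst hf'
      have hgP' := (mP g).1 hgP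
      have hhQ' := (mQ h).1 hhQ
      have hgh : g ≠ h := by
        rintro rfl
        rw [hgP'.1] at hhQ'
        exact absurd hhQ'.1 (by decide)
      obtain ⟨v, hv, hvf, hvg, hvh⟩ := eq_pt (a := a) (b := b) (ne hgP'.2.symm hxf hxg)
        (ne hhQ'.2.symm hxf hxh) (ne hgh hxg hxh) hxf hxg hxh
      have hchg : Chg (ers s f') f' v := ⟨hvf, ⟨g, hgP, hvg⟩, ⟨h, hhQ.1, hhQ.2, hvh⟩⟩
      rw [eq_V3b v] at hchg
      rcases huniq _ _ _ hchg with h' | h'
      · left
        rw [hv, eq_V3b v]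
        simp only [Prod.mk.injEq] at h'
        rw [h'.1, h'.2.1, h'.2.2]
      · right
        rw [mem_singleton_iff, hv, eq_V3b v]
        simp only [Prod.mk.injEq] at h'
        rw [h'.1, h'.2.1, h'.2.2]
    · have key : ∀ v : Fin 3 → Bool, Chg (ers s f) f v →
          (pt a b fun k => some (v k)) ∈ F ∩ PP ∩ QQ := by
        rintro v ⟨hvf, ⟨g, hg, hvg⟩, ⟨h, hh, hhf, hvh⟩⟩
        refine ⟨⟨(pt_mem_facesU hab _ _).2 ⟨f, rfl, by rw [hvf]⟩,
          (pt_mem_facesU hab _ _).2 ⟨g, hg, by rw [hvg]⟩⟩,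
          (pt_mem_facesU hab _ _).2 ⟨h, ⟨hh, hhf⟩, by rw [hvh]⟩⟩
      rintro (rfl | rfl)
      · exact key _ hv
      · exact key _ hw
  have hne : (pt a b fun k => some (V3b v0 v1 v2 k)) ≠ pt a b fun k => some (V3b w0 w1 w2 k) := by
    intro h
    apply hvw
    have hk : ∀ k, V3b v0 v1 v2 k = V3b w0 w1 w2 k := by
      intro k
      have h1 := (pt_on hab (fun k => some (V3b v0 v1 v2 k)) (k, V3b v0 v1 v2 k)).2 rfl
      rw [h] at h1
      have h2 := (pt_on hab (fun k => some (V3b w0 w1 w2 k)) (k, V3b v0 v1 v2 k)).1 h1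
      simp only [Option.some.injEq] at h2
      exact h2.symm
    have a0 := hk 0
    have a1 := hk 1
    have a2 := hk 2
    simp only [V3b] at a0 a1 a2
    rw [a0, a1, a2]
  -- midpoints of edges
  have mid : ∀ g h : Fin 3 × Bool, g.1 ≠ h.1 → ∀ S : Set (Fin 3 × Bool),
      ((pt a b fun k => if k = g.1 then some g.2 else if k = h.1 then some h.2 else none) ∈
        facesU a b S ↔ g ∈ S ∨ h ∈ S) := by
    intro g h hgh S
    rw [pt_mem_facesU hab]
    constructor
    · rintro ⟨e, he, h1⟩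
      by_cases h2 : e.1 = g.1
      · rw [if_pos h2] at h1
        left
        have : e = g := Prod.ext h2 (Option.some_injective _ h1).symm
        rwa [← this]
      · rw [if_neg h2] at h1
        by_cases h3 : e.1 = h.1
        · rw [if_pos h3] at h1
          right
          have : e = h := Prod.ext h3 (Option.some_injective _ h1).symm
          rwa [← this]
        · rw [if_neg h3] at h1
          exact absurd h1 (by simp)
    · rintro (h1 | h1)
      · exact ⟨g, h1, if_pos rfl⟩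
      · exact ⟨h, h1, by rw [if_neg hgh.symm, if_pos rfl]⟩
  have n1 : ∃ x ∈ F ∩ PP, x ∉ QQ := by
    refine ⟨_, ⟨(mid f g1 hg1f.symm _).2 (Or.inl rfl), (mid f g1 hg1f.symm _).2 (Or.inr hg1)⟩, ?_⟩
    intro h
    rcases (mid f g1 hg1f.symm _).1 h with h | h
    · exact h.2 rfl
    · have := h.1
      rw [hg1] at this
      exact absurd this (by decide)
  have hffalse : ers s f f = false := by simp [ers]
  have n2 : ∃ x ∈ PP ∩ QQ, x ∉ F := by
    refine ⟨_, ⟨(mid g2 k2 hgk _).2 (Or.inl hg2), (mid g2 k2 hgk _).2 (Or.inr ⟨hk2, hk2f⟩)⟩, ?_⟩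
    intro h
    rcases (mid g2 k2 hgk _).1 h with h | h
    · rw [mem_singleton_iff] at h
      rw [h, hffalse] at hg2
      exact absurd hg2 (by decide)
    · exact hk2f h
  have n3 : ∃ x ∈ F ∩ QQ, x ∉ PP := by
    have hk1ne : k1 ≠ f := fun h => hk1f (by rw [h])
    refine ⟨_, ⟨(mid f k1 hk1f.symm _).2 (Or.inl rfl),
      (mid f k1 hk1f.symm _).2 (Or.inr ⟨hk1, hk1ne⟩)⟩, ?_⟩
    intro h
    rcases (mid f k1 hk1f.symm _).1 h with h | h
    · rw [hP, mem_ofPred_eq, hffalse] at h
      exact absurd h (by decide)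
    · rw [hP, mem_ofPred_eq, hk1] at h
      exact absurd h (by decide)
  have hg0 : ConSphere 0 (F ∩ PP ∩ QQ) := by rw [hg]; exact conSphere_pair hne
  have e6 : PP ∩ (F ∪ QQ) = (F ∩ PP) ∪ (PP ∩ QQ) := by
    rw [inter_union_distrib_left, inter_comm PP F]
  have e7 : F ∩ (PP ∪ QQ) = (F ∩ PP) ∪ (F ∩ QQ) := inter_union_distrib_left _ _ _
  have e8 : (F ∪ PP) ∩ QQ = (PP ∩ QQ) ∪ (F ∩ QQ) := by
    rw [union_inter_distrib_right, union_comm]
  rw [e6] at h1
  rw [e7] at h2
  rw [e8]
  refine theta_step h1 h2 (hF.inter hPP) (hPP.inter hQQ) (hF.inter hQQ) (g := F ∩ PP ∩ QQ)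
    ?_ ?_ ?_ hg0 ?_ ?_ ?_ ?_
  · ext x; simp only [mem_inter_iff]; tauto
  · ext x; simp only [mem_inter_iff]; tauto
  · ext x; simp only [mem_inter_iff]; tauto
  · obtain ⟨x, hx, hx'⟩ := n1
    exact ⟨x, hx, fun h => hx' h.2⟩
  · obtain ⟨x, hx, hx'⟩ := n2
    exact ⟨x, hx, fun h => hx' h.1⟩
  · obtain ⟨x, hx, hx'⟩ := n1
    exact ⟨x, hx, fun h => hx' h.2⟩
  · obtain ⟨x, hx, hx'⟩ := n3
    exact ⟨x, hx, fun h => hx' h.2⟩

/-- the rim of one face -/
theorem conSphere_rim {a b : Fin 3 → ℝ} (hab : ∀ k, a k < b k) (f : Fin 3 × Bool) :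
    ConSphere 1 (gam a b fun g => decide (g = f)) := by
  have key := (conBall_brickFace (n := 2) two_ne_zero f.1 (if f.2 then b f.1 else a f.1)
    (lo := a) (hi := b) (fun k _ => hab k)).conSphere
  convert key using 1
  ext x
  unfold gam facesU
  simp only [mem_inter_iff, mem_ofPred_eq, decide_eq_true_eq, decide_eq_false_iff_not]
  constructor
  · rintro ⟨⟨hx, f', rfl, h1⟩, ⟨_, g, hg, h2⟩⟩
    refine ⟨⟨h1, fun k _ => ⟨hx.1 k, hx.2 k⟩⟩, g.1, ?_, ?_⟩
    · intro h
      obtain ⟨i, t⟩ := f'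
      obtain ⟨j, u⟩ := g
      simp only at h h1 h2
      subst h
      rw [h1] at h2
      have := hab j
      apply hg
      cases t <;> cases u <;> simp at h2 ⊢ <;> linarith
    · rw [h2]
      cases g.2 <;> simp
  · rintro ⟨⟨h1, h2⟩, k, hk, h3⟩
    have hx : x ∈ Icc a b := by
      constructor <;> intro j
      · by_cases hj : j = f.1
        · subst hj
          rw [h1]
          have := hab f.1
          split_ifs <;> linarith
        · exact (h2 j hj).1
      · by_cases hj : j = f.1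
        · subst hj
          rw [h1]
          have := hab f.1
          split_ifs <;> linarith
        · exact (h2 j hj).2
    refine ⟨⟨hx, f, rfl, h1⟩, ⟨hx, ?_⟩⟩
    rcases h3 with h3 | h3
    · exact ⟨(k, false), fun h => hk (by rw [← h]), by simpa using h3⟩
    · exact ⟨(k, true), fun h => hk (by rw [← h]), by simpa using h3⟩

theorem conSphere_gam {a b : Fin 3 → ℝ} (hab : ∀ k, a k < b k) :
    ∀ (n : ℕ) (s : Fin 3 × Bool → Bool), (Finset.univ.filter fun f => s f = true).card ≤ n →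
      Valid s → ConSphere 1 (gam a b s) := by
  intro n
  induction n with
  | zero =>
    intro s hs hv
    obtain ⟨⟨f, hf⟩, -⟩ := hv
    exfalso
    have : f ∈ Finset.univ.filter fun f => s f = true := by simp [hf]
    rw [Nat.le_zero, Finset.card_eq_zero] at hs
    rw [hs] at this
    exact absurd this (by simp)
  | succ n ih =>
    intro s hs hv
    rcases comb s hv with ⟨f, hf⟩ | ⟨f, hf, hval, hstep⟩
    · have : s = fun g => decide (g = f) := by
        funext g
        rw [Bool.eq_iff_iff, hf g]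
        simp
      rw [this]
      exact conSphere_rim hab f
    · refine step hab hf hstep (ih _ ?_ hval) (conSphere_rim hab f)
      have hlt : (Finset.univ.filter fun g => ers s f g = true) ⊂
          Finset.univ.filter fun g => s g = true := by
        rw [Finset.ssubset_iff_of_subset]
        · exact ⟨f, by simp [hf], by simp [ers]⟩
        · intro g hg
          simp only [Finset.mem_filter, Finset.mem_univ, true_and] at hg ⊢
          unfold ers at hg
          rw [Bool.and_eq_true] at hg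
          exact hg.1
      have := Finset.card_lt_card hlt
      omega

theorem facesU_univ (a b : Fin 3 → ℝ) :
    facesU a b univ = frontier (Icc a b) := by
  rw [frontier_Icc_pi']
  ext x
  constructor
  · rintro ⟨hx, f, -, hf⟩
    refine ⟨fun k => ⟨hx.1 k, hx.2 k⟩, fun h => ?_⟩
    have := h f.1
    rw [hf] at this
    split_ifs at this
    · exact absurd this.2 (lt_irrefl _)
    · exact absurd this.1 (lt_irrefl _)
  · rintro ⟨h1, h2⟩
    refine ⟨⟨fun k => (h1 k).1, fun k => (h1 k).2⟩, ?_⟩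
    by_contra hcon
    push Not at hcon
    refine h2 fun k => ⟨?_, ?_⟩
    · exact lt_of_le_of_ne (h1 k).1 fun h => hcon (k, false) (mem_univ _) (by simp [h])
    · exact lt_of_le_of_ne (h1 k).2 fun h => hcon (k, true) (mem_univ _) (by simp [h])

/-- **Unions of faces**: a set of faces of a box such that the set and its complement are connected
forms a conical disc. -/
theorem conBall_facesU {a b : Fin 3 → ℝ} (hab : ∀ k, a k < b k) {S : Set (Fin 3 × Bool)}
    (h1 : S.Nonempty) (h2 : Sᶜ.Nonempty) (h3 : ∀ k, S ≠ {(k, false), (k, true)})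
    (h4 : ∀ k, Sᶜ ≠ {(k, false), (k, true)}) :
    ConBall 2 (facesU a b S) (facesU a b S ∩ facesU a b Sᶜ) := by
  classical
  let s : Fin 3 × Bool → Bool := fun f => decide (f ∈ S)
  have eS : {f | s f = true} = S := by ext f; simp [s]
  have eS' : {f | s f = false} = Sᶜ := by ext f; simp [s]
  have hpair : ∀ k, ({(k, false), (k, true)} : Set (Fin 3 × Bool)) = {f | f.1 = k} := by
    intro k
    ext ⟨i, t⟩
    cases t <;> simp [Prod.ext_iff]
  have hv : Valid s := by
    refine ⟨?_, ?_, ?_, ?_⟩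
    · obtain ⟨f, hf⟩ := h1; exact ⟨f, by simp [s, hf]⟩
    · obtain ⟨f, hf⟩ := h2
      exact ⟨f, by simpa [s] using hf⟩
    · intro k hk
      apply h3 k
      rw [hpair]
      ext f
      rw [mem_ofPred_eq, ← hk f]
      simp [s]
    · intro k hk
      apply h4 k
      rw [hpair]
      ext f
      rw [mem_ofPred_eq, ← hk f]
      simp [s]
  have hc := conSphere_gam hab _ s le_rfl hv
  unfold gam at hc
  rw [eS, eS'] at hc
  have hsph : ConSphere 2 (frontier (Icc a b)) := (conBall_Icc_pi (n := 3) three_ne_zero hab).conSphere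
  have hJ : JordanSch 2 (frontier (Icc a b)) := hsph.jordanSch H339.jordanSch_sphere
  have hun : facesU a b S ∪ facesU a b Sᶜ = frontier (Icc a b) := by
    rw [← facesU_union, union_compl_self, facesU_univ]
  -- centres of faces
  have cen : ∀ f : Fin 3 × Bool, ∀ T : Set (Fin 3 × Bool),
      ((pt a b fun k => if k = f.1 then some f.2 else none) ∈ facesU a b T ↔ f ∈ T) := by
    intro f T
    rw [pt_mem_facesU hab]
    constructor
    · rintro ⟨e, he, h1⟩
      by_cases h2 : e.1 = f.1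
      · rw [if_pos h2] at h1
        have : e = f := Prod.ext h2 (Option.some_injective _ h1).symm
        rwa [← this]
      · rw [if_neg h2] at h1
        exact absurd h1 (by simp)
    · intro h1
      exact ⟨f, h1, if_pos rfl⟩
  refine (split_sets hJ (isClosed_facesU _ _ _) (isClosed_facesU _ _ _) hun rfl hc ?_ ?_).1
  · obtain ⟨f, hf⟩ := h1
    exact ⟨_, (cen f S).2 hf, fun h => (cen f Sᶜ).1 h hf⟩
  · obtain ⟨f, hf⟩ := h2
    exact ⟨_, (cen f Sᶜ).2 hf, fun h => hf ((cen f S).1 h)⟩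

end P073.TM655
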